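import Vale.Agent.P252.Defs

open Set

namespace P252

/-! Module A -/
/-- kernel integral `I_N[g](s) = ∫_0^1 2 θ^N g(θ² s) dθ` -/
noncomputable def Ker (N : ℕ) (g : ℝ → ℝ) (s : ℝ) : ℝ :=
  ∫ θ in (0:ℝ)..1, 2 * θ ^ N * g (θ ^ 2 * s)

theorem moduleA (F : (Fin 3 → ℝ) → (Fin 3 → ℝ)) (M : ℝ) (L : NNReal)
    (hM : ∀ v i, |F v i| ≤ M) (hL : LipschitzWith L F) (v0 : Fin 3 → ℝ) (N : Fin 3 → ℕ)
    (hN : ∀ i, 1 ≤ N i) :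
    ∃ v : ℝ → (Fin 3 → ℝ), Continuous v ∧
      ∀ s i, v s i = v0 i + s * Ker (N i) (fun t => F (v t) i) s := sorry

/-! Module B -/
theorem moduleB_deriv (N : ℕ) (hN : 1 ≤ N) (g : ℝ → ℝ) (hg : Continuous g) (s : ℝ) :
    HasDerivAt (fun s => s * Ker N g s) (g s - ((N : ℝ) - 1) / 2 * Ker N g s) s := sorry

/-- smoothness bootstrap -/
theorem moduleB_smooth (F : (Fin 3 → ℝ) → (Fin 3 → ℝ)) (hF : Continuous F)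
    (v0 : Fin 3 → ℝ) (N : Fin 3 → ℕ) (hN : ∀ i, 1 ≤ N i)
    (v : ℝ → (Fin 3 → ℝ)) (hv : Continuous v)
    (hfix : ∀ s i, v s i = v0 i + s * Ker (N i) (fun t => F (v t) i) s)
    (δ : ℝ) (hδ : 0 < δ) (O : Set (Fin 3 → ℝ)) (hO : IsOpen O)
    (hvO : ∀ s, -δ < s → v s ∈ O) (hFO : ContDiffOn ℝ (⊤ : ℕ∞) F O) :
    ContDiffOn ℝ (⊤ : ℕ∞) v (Ioi (-δ)) := sorry

/-! Module C : output of the ODE part -/
/-- For `m ≥ 9` there are `δ > 0` and smooth `E, y` on `(-δ, ∞)` with the ODE system. -/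
theorem moduleC (m : ℕ) (hm : 9 ≤ m) :
    ∃ (δ : ℝ) (E y : ℝ → ℝ), 0 < δ ∧
      ContDiffOn ℝ (⊤ : ℕ∞) E (Ioi (-δ)) ∧ ContDiffOn ℝ (⊤ : ℕ∞) y (Ioi (-δ)) ∧
      E 0 = 1 ∧
      (∀ s, -δ < s → 0 < E s ∧ 0 < (m:ℝ) + 2 * (s / E s) ∧ 0 < 1 + s / E s * y s) ∧
      (∀ s, -δ < s → HasDerivAt E ((1 - y s) / 2) s) ∧
      (∀ s, -δ < s → ∃ y' : ℝ, HasDerivAt y y' s ∧
        2 * s * y' = (1 + s / E s * y s) *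
            (2 * (s / E s) + 2 * m + 3 - ((m:ℝ) ^ 2 - 6 * (s / E s)) * y s) /
              (2 * (s / E s) + m)
          - y s * (2 + s / E s * (y s - 1))) := sorry

/-! Module D : `G` and `h` -/
theorem moduleD (m : ℕ) (hm : 9 ≤ m) :
    ∃ (δ : ℝ) (G G1 G2 h h1 h2 : ℝ → ℝ), 0 < δ ∧
      ContDiffOn ℝ (⊤ : ℕ∞) G (Ioi (-δ)) ∧ ContDiffOn ℝ (⊤ : ℕ∞) h (Ioi (-δ)) ∧
      G 0 = 1 ∧
      (∀ s, -δ < s → HasDerivAt G (G1 s) s) ∧ (∀ s, -δ < s → HasDerivAt G1 (G2 s) s) ∧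
      (∀ s, -δ < s → HasDerivAt h (h1 s) s) ∧ (∀ s, -δ < s → HasDerivAt h1 (h2 s) s) ∧
      (∀ s, -δ < s → 0 < G s ∧ 0 < G1 s ∧
        0 < G s * G1 s + 2 * s * G s * G2 s - s * G1 s ^ 2) ∧
      (∀ s, -δ < s → h s = (G1 s ^ (m - 1) *
        (G s * G1 s + 2 * s * G s * G2 s - s * G1 s ^ 2)) ^ (-(((m:ℝ) + 2) / (m + 3)))) ∧
      (∀ s, -δ < s →
        2 * s * G s * h2 s + (m * G s + (m + 5) * s * G1 s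
          + 2 * (m - 1) * s * G s * G2 s / G1 s) * h1 s
          + 1 / 2 * (m + 1) * (m + 2) * (G1 s + 2 * s * G2 s) * h s = 0) := sorry

/-! Module E : the PDE part -/
theorem moduleE (m : ℕ) (hm : 9 ≤ m) (δ : ℝ) (G G1 G2 h h1 h2 : ℝ → ℝ) (hδ : 0 < δ)
    (hG : ContDiffOn ℝ (⊤ : ℕ∞) G (Ioi (-δ))) (hh : ContDiffOn ℝ (⊤ : ℕ∞) h (Ioi (-δ)))
    (dG : ∀ s, -δ < s → HasDerivAt G (G1 s) s) (dG1 : ∀ s, -δ < s → HasDerivAt G1 (G2 s) s)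
    (dh : ∀ s, -δ < s → HasDerivAt h (h1 s) s) (dh1 : ∀ s, -δ < s → HasDerivAt h1 (h2 s) s)
    (pos : ∀ s, -δ < s → 0 < G s ∧ 0 < G1 s ∧
        0 < G s * G1 s + 2 * s * G s * G2 s - s * G1 s ^ 2)
    (hdef : ∀ s, -δ < s → h s = (G1 s ^ (m - 1) *
        (G s * G1 s + 2 * s * G s * G2 s - s * G1 s ^ 2)) ^ (-(((m:ℝ) + 2) / (m + 3))))
    (heq : ∀ s, -δ < s →
        2 * s * G s * h2 s + (m * G s + (m + 5) * s * G1 s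
          + 2 * (m - 1) * s * G s * G2 s / G1 s) * h1 s
          + 1 / 2 * (m + 1) * (m + 2) * (G1 s + 2 * s * G2 s) * h s = 0) :
    ∃ u : (Fin (m + 1) → ℝ) → ℝ,
      (∀ x, u x = Real.sqrt (x 0 ^ 2 + G (∑ i : Fin m, x i.succ ^ 2))) ∧
      ContDiff ℝ (⊤ : ℕ∞) u ∧ (∀ x, (hess u x).PosDef) ∧ ∀ x, AMop u x = 0 := sorry

/-- final theorem shape -/
theorem final (n : ℕ) (hn : 10 ≤ n) :
    ∃ u : (Fin n → ℝ) → ℝ, ContDiff ℝ (⊤ : ℕ∞) u ∧ (∀ x, (hess u x).PosDef) ∧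
      (∀ x, AMop u x = 0) ∧
      ¬ ∃ (A : Matrix (Fin n) (Fin n) ℝ) (b : Fin n → ℝ) (c : ℝ),
          ∀ x, u x = 1 / 2 * (x ⬝ᵥ A.mulVec x) + b ⬝ᵥ x + c := sorry

end P252
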